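import Vale.Agent.P088.R2.H349.J.SpecC
import Vale.Agent.P088.R2.H948.T.Fac
import Vale.Agent.P088.R2.H948.G.Par

/-!
# Row T2C: conformal factors and unitary connections on a near-flat background
-/

open MeasureTheory Set
open scoped ContDiff Matrix

noncomputable section

namespace Vale.Agent.P088.HY.T9

open Vale.Agent.P088.LR Vale.Agent.P088.LR.H158 Vale.Agent.P088.LR.U

variable {n N : ℕ}

theorem cl_mono {F : Type*} [NormedAddCommGroup F] [NormedSpace ℝ F] {K : ℕ} {ε ε' : ℝ}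
    {f : V n → F} (h : ε ≤ ε') (hf : Cl K ε f) : Cl K ε' f := fun l hl x => (hf l hl x).trans h

theorem cl_re {K : ℕ} {ε : ℝ} {f : V n → ℂ} (hs : ContDiff ℝ ∞ f) (hf : Cl K ε f) :
    Cl K ε fun x => (f x).re := by
  intro l hl x
  have h := Complex.reCLM.norm_iteratedFDeriv_comp_left (f := f) (x := x) (n := l) hs.contDiffAt
    (by exact_mod_cast le_top)
  rw [Complex.reCLM_norm, one_mul] at h
  exact h.trans (hf l hl x)

theorem cl_im {K : ℕ} {ε : ℝ} {f : V n → ℂ} (hs : ContDiff ℝ ∞ f) (hf : Cl K ε f) :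
    Cl K ε fun x => (f x).im := by
  intro l hl x
  have h := Complex.imCLM.norm_iteratedFDeriv_comp_left (f := f) (x := x) (n := l) hs.contDiffAt
    (by exact_mod_cast le_top)
  rw [Complex.imCLM_norm, one_mul] at h
  exact h.trans (hf l hl x)

theorem cl_neg {K : ℕ} {ε : ℝ} {f : V n → ℝ} (hf : Cl K ε f) : Cl K ε fun x => -f x := by
  intro l hl x
  have h : (fun x => -f x) = -f := rfl
  rw [h, iteratedFDeriv_neg_apply, norm_neg]
  exact hf l hl x

theorem aOk {K : ℕ} {ε : ℝ} {A : Cn n N} (hA : SmU A) (hc : ∀ i, ClC K ε (A i)) :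
    AOk K ε (rC A) := by
  refine ⟨fun l p q => contDiff_rM (hA.1 l) p q, fun l x => ?_, fun l p q => ?_⟩
  · show (rM (A l x))ᵀ = -rM (A l x)
    rw [← rM_ct, hA.2 l x, rM_neg]
  · show Cl K ε fun x => rM (A l x) p q
    have hre := fun a b => cl_re (hA.1 l a b) (hc l a b)
    have him := fun a b => cl_im (hA.1 l a b) (hc l a b)
    refine cas (P := fun p => Cl K ε fun x => rM (A l x) p q) (fun a => ?_) (fun a => ?_) p
    · refine cas (P := fun q => Cl K ε fun x => rM (A l x) (fl a) q) (fun b => ?_)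
        (fun b => ?_) q
      · simpa only [rM_ll] using hre a b
      · simpa only [rM_lr] using cl_neg (him a b)
    · refine cas (P := fun q => Cl K ε fun x => rM (A l x) (fr a) q) (fun b => ?_)
        (fun b => ?_) q
      · simpa only [rM_rl] using him a b
      · simpa only [rM_rr] using hre a b

/-- Smooth functions with compact support are bounded with all derivatives. -/
theorem cl_cs {f : V n → ℝ} (hf : ContDiff ℝ ∞ f) (hc : HasCompactSupport f) (K : ℕ) :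
    ∃ M : ℝ, 0 ≤ M ∧ Cl K M f := by
  have h1 : ∀ l : ℕ, ∃ C : ℝ, ∀ x, ‖iteratedFDeriv ℝ l f x‖ ≤ C := fun l =>
    (hf.continuous_iteratedFDeriv (m := l) (by exact_mod_cast le_top)).bounded_above_of_compact_support
      (hc.iteratedFDeriv l)
  choose C hC using h1
  refine ⟨∑ l ∈ Finset.range (K + 1), |C l|, Finset.sum_nonneg fun _ _ => abs_nonneg _,
    fun l hl x => ?_⟩
  exact (hC l x).trans ((le_abs_self _).trans (Finset.single_le_sum (f := fun l => |C l|)
    (fun _ _ => abs_nonneg _) (Finset.mem_range.2 (by omega))))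

theorem qOk {K : ℕ} {M : ℝ} (hM : 0 ≤ M) {q : V n → ℝ} (hq : ContDiff ℝ ∞ q) (hc : Cl K M q)
    (m : ℕ) : QOk K M (fun x => q x • (1 : Matrix (Fin m) (Fin m) ℝ)) := by
  refine ⟨fun p r => ?_, fun x => ?_, fun p r => ?_⟩
  · simp only [Matrix.smul_apply, smul_eq_mul]
    exact hq.mul contDiff_const
  · rw [Matrix.transpose_smul, Matrix.transpose_one]
  · simp only [Matrix.smul_apply, smul_eq_mul]
    by_cases h : p = r
    · subst h
      simpa only [Matrix.one_apply_eq, mul_one] using hc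
    · simp only [Matrix.one_apply_ne h, mul_zero]
      intro l hl x
      show ‖iteratedFDeriv ℝ l (fun _ : V n => (0 : ℝ)) x‖ ≤ M
      simpa using hM

theorem sum_diag {m : ℕ} (a b : ℝ) (u v : Fin m → ℝ) :
    ∑ p, ∑ q, ((a • (1 : Matrix (Fin m) (Fin m) ℝ)) p q - (b • (1 : Matrix (Fin m) (Fin m) ℝ)) p q) *
      u q * v p = (a - b) * ∑ p, u p * v p := by
  rw [Finset.mul_sum]
  refine Finset.sum_congr rfl fun p _ => ?_
  simp only [Matrix.smul_apply, smul_eq_mul, ← mul_sub_right_distrib]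
  rw [Finset.sum_eq_single p]
  · rw [Matrix.one_apply_eq]; ring
  · intro q _ hq
    rw [Matrix.one_apply_ne hq.symm]; ring
  · intro h
    exact absurd (Finset.mem_univ p) h

theorem re_fo (s : MF n) {A : Cn n N} {u v : Fin (N + N) → V n → ℝ}
    (hu : ∀ p, ContDiff ℝ ∞ (u p)) (hv : ∀ p, ContDiff ℝ ∞ (v p)) (x : V n) :
    (fo s A (cV u) (cV v) x).re =
      ∑ i, ∑ j, ∑ p, s x i j * (Dc (rC A) i u p x * Dc (rC A) j v p x) := by
  unfold fo
  simp only [Complex.re_sum, Complex.re_ofReal_mul, cd_cV hu, cd_cV hv, re_dot, Finset.mul_sum]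

theorem chi_cs : HasCompactSupport (G.chi : V n → ℝ) := by
  refine HasCompactSupport.intro G.isCompact_Bd fun x hx => ?_
  exact G.chi_zero (le_of_lt (not_le.1 hx))

end Vale.Agent.P088.HY.T9

namespace Vale.Agent.P088.HY

open Vale.Agent.P088.LR Vale.Agent.P088.LR.H158 T9

/-- Row T2C. -/
theorem rowT2C (hT2 : RowT2) : RowT2C := by
  intro n N hn hN
  obtain ⟨K, ε, hε, hT⟩ := hT2 n (N + N) hn
  have hn0 : (0 : ℝ) < n := by
    have : 0 < n := by omega
    exact_mod_cast this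
  refine ⟨K, min ε (1 / (2 * n)), lt_min hε (by positivity), ?_⟩
  intro Ω hΩ hi hpc hsub s hs σ₁ σ₂ hσ₁ hσ₂ hp₁ hp₂ hσ A₁ A₂ hA₁ hA₂ hA hc₁ hc₂ hOr
  have hb34 : Ω ⊆ Bs n (3 / 4) := fun x hx => by
    have h1 : sq x < (1 / 2) ^ 2 := hsub hx
    show sq x < (3 / 4) ^ 2
    linarith
  have hbd : Bornology.IsBounded Ω :=
    G.isCompact_Bc.isBounded.subset (hb34.trans G.Bs_subset)
  have hchi : ∀ x ∈ Bs n (3 / 4), G.chi x = 1 := fun x hx => G.chi_one (G.Bs_subset hx)
  -- square roots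
  set ρ₁ : V n → ℝ := fun x => √(σ₁ x) with hρ₁
  set ρ₂ : V n → ℝ := fun x => √(σ₂ x) with hρ₂
  have sρ₁ : ContDiff ℝ ∞ ρ₁ := hσ₁.sqrt fun x => (hp₁ x).ne'
  have sρ₂ : ContDiff ℝ ∞ ρ₂ := hσ₂.sqrt fun x => (hp₂ x).ne'
  have pρ₁ : ∀ x, 0 < ρ₁ x := fun x => Real.sqrt_pos.2 (hp₁ x)
  have pρ₂ : ∀ x, 0 < ρ₂ x := fun x => Real.sqrt_pos.2 (hp₂ x)
  have e₁ : ∀ x, σ₁ x = ρ₁ x ^ 2 := fun x => (Real.sq_sqrt (hp₁ x).le).symm
  have e₂ : ∀ x, σ₂ x = ρ₂ x ^ 2 := fun x => (Real.sq_sqrt (hp₂ x).le).symm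
  have hρ : ∀ x ∉ Ω, ρ₂ x = ρ₁ x := fun x hx => by
    show √(σ₂ x) = √(σ₁ x)
    rw [hσ x hx]
  have hpoff := pot_off hi hs.sm sρ₁ sρ₂ hρ
  -- potentials
  have sq₁ : ContDiff ℝ ∞ fun x => G.chi x * pot s ρ₁ x :=
    G.contDiff_chi.mul (sm_pot hs.sm sρ₁ pρ₁)
  have sq₂ : ContDiff ℝ ∞ fun x => G.chi x * pot s ρ₂ x :=
    G.contDiff_chi.mul (sm_pot hs.sm sρ₂ pρ₂)
  obtain ⟨M₁, hM₁, hq₁⟩ := cl_cs sq₁ chi_cs.mul_right K
  obtain ⟨M₂, hM₂, hq₂⟩ := cl_cs sq₂ chi_cs.mul_right K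
  have hTS : TS n K ε s := ⟨hs.sm, hs.sy, fun i j => cl_mono (min_le_left _ _) (hs.cl i j), hs.dv⟩
  have hcl : ∀ {A : Cn n N}, (∀ i, U.ClC K (min ε (1 / (2 * n))) (A i)) → ∀ i, U.ClC K ε (A i) :=
    fun h i a b => cl_mono (min_le_left _ _) (h i a b)
  have hM : 0 < M₁ + M₂ + 1 := by positivity
  have hQ₁ := qOk hM.le sq₁ (cl_mono (by linarith) hq₁) (N + N)
  have hQ₂ := qOk hM.le sq₂ (cl_mono (by linarith) hq₂) (N + N)
  have hId : IdA s (rC A₁) (rC A₂) (fun x => (G.chi x * pot s ρ₁ x) • 1)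
      (fun x => (G.chi x * pot s ρ₂ x) • 1) := by
    intro u v hu hv hLu hLv
    have hU := contDiff_cV hu
    have hV := contDiff_cV hv
    have hLU : ∀ x ∈ Ω, U.lav s A₁ (cV u) x = (pot s ρ₁ x : ℂ) • cV u x := by
      intro x hx
      have h1 := LA_eq hs.sm hA₁ hu (fun x => G.chi x * pot s ρ₁ x) x
      have h2 : cV (LA s (rC A₁) (fun x => (G.chi x * pot s ρ₁ x) • 1) u) x = 0 := by
        funext b
        unfold cV
        rw [hLu x (hb34 hx), hLu x (hb34 hx)]
        rfl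
      rw [h2, hchi x (hb34 hx), one_mul] at h1
      exact (sub_eq_zero.1 h1.symm)
    have hLV : ∀ x ∈ Ω, U.lav s A₂ (cV v) x = (pot s ρ₂ x : ℂ) • cV v x := by
      intro x hx
      have h1 := LA_eq hs.sm hA₂ hv (fun x => G.chi x * pot s ρ₂ x) x
      have h2 : cV (LA s (rC A₂) (fun x => (G.chi x * pot s ρ₂ x) • 1) v) x = 0 := by
        funext b
        unfold cV
        rw [hLv x (hb34 hx), hLv x (hb34 hx)]
        rfl
      rw [h2, hchi x (hb34 hx), one_mul] at h1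
      exact (sub_eq_zero.1 h1.symm)
    have h3 := idC hΩ hbd hi hs.sm hs.sy sρ₁ sρ₂ pρ₁ pρ₂ hρ e₁ e₂ hA₁ hA₂ hOr hU hV hLU hLV
    have hint : IntegrableOn (fun x => fo s A₁ (cV u) (cV v) x - fo s A₂ (cV u) (cV v) x +
        ((pot s ρ₁ x : ℂ) - (pot s ρ₂ x : ℂ)) * (cV u x ⬝ᵥ star (cV v x))) Ω := by
      refine intOn hbd ?_
      refine ((H106.qf_contS hs.sm hA₁ hU hV).sub (H106.qf_contS hs.sm hA₂ hU hV)).add ?_
      exact ((Complex.continuous_ofReal.comp (sm_pot hs.sm sρ₁ pρ₁).continuous).sub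
        (Complex.continuous_ofReal.comp (sm_pot hs.sm sρ₂ pρ₂).continuous)).mul
          (cont_dot hU hV).continuous
    have h4 := integral_re (𝕜 := ℂ) hint
    rw [h3, map_zero] at h4
    rw [setIntegral_eq_of_subset_of_forall_sdiff_eq_zero (isOpen_Bs _).measurableSet hb34]
    · rw [← h4]
      refine setIntegral_congr_fun hΩ.measurableSet fun x hx => ?_
      show _ = (fo s A₁ (cV u) (cV v) x - fo s A₂ (cV u) (cV v) x +
        ((pot s ρ₁ x : ℂ) - (pot s ρ₂ x : ℂ)) * (cV u x ⬝ᵥ star (cV v x))).re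
      rw [Complex.add_re, Complex.sub_re, re_fo s hu hv, re_fo s hu hv, ← Complex.ofReal_sub,
        Complex.re_ofReal_mul, re_dot]
      simp only [sum_diag, hchi x (hb34 hx), one_mul]
      congr 1
      simp only [← Finset.sum_sub_distrib, mul_sub]
    · rintro x ⟨-, hx⟩
      have h5 : ∀ i (w : Fin (N + N) → V n → ℝ) p, Dc (rC A₂) i w p x = Dc (rC A₁) i w p x := by
        intro i w p
        unfold Dc rC
        rw [hA i x hx]
      simp only [h5, hpoff x hx, sub_self, mul_zero, zero_mul, Finset.sum_const_zero, add_zero]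
  obtain ⟨G', hG, hQG⟩ := hT _ hM s (rC A₁) (rC A₂) _ _ hTS (aOk hA₁ (hcl hc₁))
    (aOk hA₂ (hcl hc₂)) hQ₁ hQ₂ (fun x hx i => by
      unfold rC
      rw [hA i x fun h => hx (hb34 h)]) (fun x hx => by
      show (G.chi x * pot s ρ₂ x) • (1 : Matrix _ _ ℝ) = (G.chi x * pot s ρ₁ x) • 1
      rw [hpoff x fun h => hx (hb34 h)]) hId
  -- the potentials are equal
  have hpot : ∀ x, pot s ρ₂ x = pot s ρ₁ x := by
    intro x
    by_cases hx : x ∈ Ω
    · have h1 := hQG x
      simp only [hchi x (hb34 hx), one_mul] at h1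
      rw [Matrix.smul_mul, Matrix.mul_smul, one_mul, mul_one] at h1
      have h2 := congrArg (fun T => T * (G' x)ᵀ) h1
      simp only [Matrix.smul_mul, hG.o] at h2
      have h3 := congrFun (congrFun h2 ⟨0, by omega⟩) ⟨0, by omega⟩
      simp only [Matrix.smul_apply, Matrix.one_apply_eq, smul_eq_mul, mul_one] at h3
      exact h3.symm
    · exact hpoff x hx
  -- a point far away
  have hfar : sq (fun _ : Fin n => (1 : ℝ)) = n := by
    unfold sq
    simp
  have hn1 : (3 : ℝ) ≤ n := by exact_mod_cast hn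
  set x₀ : V n := fun _ => 1 with hx₀
  have hx₀c : x₀ ∉ closure Ω := by
    intro h
    have h1 : closure Ω ⊆ {x : V n | sq x ≤ 1} :=
      closure_minimal (fun x hx => by
        have h2 : sq x < (1 / 2) ^ 2 := hsub hx
        show sq x ≤ 1
        linarith) (isClosed_le continuous_sq continuous_const)
    have h2 : sq x₀ ≤ 1 := h1 h
    rw [hfar] at h2
    linarith
  have hx₀Ω : x₀ ∉ Ω := fun h => hx₀c (subset_closure h)
  have hx₀B : x₀ ∉ Bs n (3 / 4) := by
    intro h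
    have h2 : sq x₀ < (3 / 4) ^ 2 := h
    rw [hfar] at h2
    linarith
  have hpos : ∀ x (v : Fin n → ℝ), ∑ i, v i ^ 2 ≤ 2 * ∑ i, ∑ j, s x i j * (v i * v j) := by
    intro x v
    refine pos_near (ε := min ε (1 / (2 * n))) ?_ (fun i j => ?_) v
    · calc (n : ℝ) * min ε (1 / (2 * n)) ≤ n * (1 / (2 * n)) :=
            mul_le_mul_of_nonneg_left (min_le_right _ _) hn0.le
        _ = 1 / 2 := by field_simp
    · have h1 := hs.cl i j 0 (Nat.zero_le _) x
      rw [norm_iteratedFDeriv_zero, Real.norm_eq_abs] at h1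
      exact h1
  have hρeq := rho_eq hbd hs.sm hs.sy sρ₁ sρ₂ pρ₁ pρ₂ hρ hpos hpot hx₀Ω
  refine ⟨fun x => by rw [e₁, e₂, hρeq x], ?_⟩
  -- the gauge
  have hJ : ∀ x, G' x * rM (Complex.I • 1) = rM (Complex.I • 1) * G' x := by
    have h1 : ∀ M : Matrix (Fin N) (Fin N) ℂ, rM M * rM (Complex.I • 1) = rM (Complex.I • 1) * rM M := by
      intro M
      rw [← rM_mul, ← rM_mul, Matrix.mul_smul, Matrix.smul_mul, mul_one, one_mul]
    exact hG.c _ (fun i x => h1 _) fun i x => h1 _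
  set W : U.MC n N := fun x => cM (G' x) with hW
  have hWG : ∀ x, rM (W x) = G' x := fun x => rM_cM (hJ x)
  have hWs : SmC W := fun a b => contDiff_mk (hG.sm _ _) (hG.sm _ _)
  have hWW : ∀ x, W x * (W x)ᴴ = 1 := by
    intro x
    refine rM_inj ?_
    rw [rM_mul, rM_ct, hWG, hG.o, rM_one]
  have hWW' : ∀ x, (W x)ᴴ * W x = 1 := fun x => mul_eq_one_comm.1 (hWW x)
  refine ⟨W, hWs, hWW', fun x hx => ?_, fun i x => ?_⟩
  · refine rM_inj ?_
    rw [hWG, rM_one]
    exact gau_one hi hpc (fun i x => (aOk hA₁ (hcl hc₁)).sk i x) (fun i x hx => by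
      unfold rC
      rw [hA i x hx]) hG hx₀c (hG.z x₀ hx₀B) x hx
  · have h1 : (Matrix.of fun p q => pd i (fun y => G' y p q) x) = rM (pdm i W x) := by
      have h2 : ∀ p q, pd i (fun y => G' y p q) x = pd i (fun y => rM (W y) p q) x := by
        intro p q
        simp only [hWG]
      have h3 : ∀ a b, pdm i W x a b = ⟨pd i (fun y => G' y (fl a) (fl b)) x,
          pd i (fun y => G' y (fr a) (fl b)) x⟩ := fun a b =>
        pd_mk (dfa (hG.sm _ _) x) (dfa (hG.sm _ _) x) i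
      refine ext4 (fun a b => ?_) (fun a b => ?_) (fun a b => ?_) fun a b => ?_
      · rw [rM_ll, h3]; rfl
      · rw [rM_lr, h3, Matrix.of_apply, h2]
        simp only [rM_lr]
        have h4 : pd i (fun y => -(W y a b).im) x = -pd i (fun y => G' y (fr a) (fl b)) x := by
          unfold pd
          rw [fderiv_fun_neg]
          rfl
        exact h4
      · rw [rM_rl, h3]; rfl
      · rw [rM_rr, h3, Matrix.of_apply, h2]
        simp only [rM_rr]
        rfl
    have h5 := hG.p i x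
    unfold Dh at h5
    rw [h1, ← hWG x] at h5
    have h6 : pdm i W x + A₁ i x * W x - W x * A₂ i x = 0 := by
      refine rM_inj ?_
      rw [rM_sub, rM_add, rM_mul, rM_mul]
      have h7 : rM (0 : Matrix (Fin N) (Fin N) ℂ) = 0 := by
        have h8 := rM_sub (1 : Matrix (Fin N) (Fin N) ℂ) 1
        rwa [sub_self, sub_self] at h8
      rw [h7]
      exact h5
    have h9 : W x * A₂ i x = pdm i W x + A₁ i x * W x := (sub_eq_zero.1 h6).symm
    calc A₂ i x = ((W x)ᴴ * W x) * A₂ i x := by rw [hWW', one_mul]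
      _ = (W x)ᴴ * (W x * A₂ i x) := by rw [Matrix.mul_assoc]
      _ = (W x)ᴴ * A₁ i x * W x + (W x)ᴴ * pdm i W x := by
          rw [h9, Matrix.mul_add, Matrix.mul_assoc, add_comm]

end Vale.Agent.P088.HY
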